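import Vale.Agent.P300LN.Fin
import Vale.Agent.P300LR.Tor
import Vale.Agent.P300LH.Seg
import Vale.Agent.P300LK.Push
import Vale.Agent.P300L.Ymf

/-!
# P300: the join side, up to the generic choice
-/

namespace Vale.Agent.P300LN

theorem join_of (h : P300L.GEN) (P : P300LZ.Surf Complex.I) (Q : P300LZ.Surf P300L.t₂) :
    P300LS.Core :=
  P300L.core_of P300LR.tor P300LH.prd P300LH.seg h P300LK.push P300L.ymf P300LR.prj end_ ns P Q

end Vale.Agent.P300LN
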