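import Mathlib.Analysis.Complex.Liouville
import Mathlib.Analysis.Analytic.IsolatedZeros
import Mathlib.Analysis.Complex.CauchyIntegral
import Mathlib.NumberTheory.Real.Irrational
import Mathlib.Topology.Algebra.Order.Archimedean
import Mathlib.Topology.Instances.AddCircle.DenseSubgroup

/-!
# P300, block NS: entire functions with a rank three group of periods
-/

open scoped Topology
open Filter Set Metric Complex

noncomputable section

namespace Vale.Agent.P300LN

/-- the periods of a map -/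
def Per {α : Type*} (F : ℂ × ℂ → α) : AddSubgroup (ℂ × ℂ) where
  carrier := {v | ∀ z, F (z + v) = F z}
  zero_mem' _ := by rw [add_zero]
  add_mem' {a b} ha hb z := by rw [← add_assoc, hb, ha]
  neg_mem' {a} ha z := by rw [← ha, neg_add_cancel_right]

theorem ex_red (s : ℝ) (hs : s ≠ 0) (x : ℝ) : ∃ k : ℤ, |x + k * s| ≤ |s| := by
  refine ⟨-⌊x / s⌋, ?_⟩
  have e : x + (-⌊x / s⌋ : ℤ) * s = Int.fract (x / s) * s := by
    rw [Int.fract, sub_mul, div_mul_cancel₀ _ hs]; push_cast; ring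
  rw [e, abs_mul, abs_of_nonneg (Int.fract_nonneg _)]
  exact mul_le_of_le_one_left (abs_nonneg _) (Int.fract_lt_one _).le

/-- an entire function with two incommensurable imaginary periods is constant -/
theorem const_of_irr {e : ℂ → ℂ} (he : Differentiable ℂ e) {s t : ℝ} (h : Irrational (s / t))
    (hs : ∀ z, e (z + s * I) = e z) (ht : ∀ z, e (z + t * I) = e z) (z : ℂ) : e z = e 0 := by
  let S : AddSubgroup ℝ :=
    { carrier := {x | ∀ z, e (z + x * I) = e z}
      zero_mem' := fun z => by simp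
      add_mem' := fun {a b} ha hb z => by rw [ofReal_add, add_mul, ← add_assoc, hb, ha]
      neg_mem' := fun {a} ha z => by rw [← ha, ofReal_neg, neg_mul, neg_add_cancel_right] }
  have d : Dense (S : Set ℝ) := (dense_addSubgroupClosure_pair_iff.2 h).mono
    ((AddSubgroup.closure_le S).2 (pair_subset hs ht))
  have c : ∀ x : ℝ, e (x * I) = e 0 := fun x => congrFun (Continuous.ext_on d
    (f := fun x : ℝ => e (x * I)) (g := fun _ => e 0) (he.continuous.comp (by fun_prop))
    continuous_const fun x hx => by simpa using hx 0) x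
  refine (he.differentiableOn.analyticOnNhd isOpen_univ).eqOn_of_preconnected_of_frequently_eq
    analyticOnNhd_const isPreconnected_univ (mem_univ 0) ?_ (mem_univ z)
  have t : Tendsto (fun x : ℝ => (x : ℂ) * I) (𝓝[≠] 0) (𝓝[≠] 0) :=
    tendsto_nhdsWithin_iff.2 ⟨(by fun_prop : Continuous fun x : ℝ => (x : ℂ) * I).tendsto' 0 0
      (by simp) |>.mono_left nhdsWithin_le_nhds, eventually_nhdsWithin_of_forall fun x hx =>
        mul_ne_zero (ofReal_ne_zero.2 hx) I_ne_zero⟩
  exact t.frequently (Eventually.of_forall c).frequently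

/-- reduction modulo the three periods -/
theorem ex_box {K : AddSubgroup (ℂ × ℂ)} {s t m r r' : ℝ} (s0 : s ≠ 0) (t0 : t ≠ 0) (m0 : m ≠ 0)
    (h1 : ((s * I, 0) : ℂ × ℂ) ∈ K) (h2 : ((0, t * I) : ℂ × ℂ) ∈ K)
    (h3 : ((m + r * I, -m + r' * I) : ℂ × ℂ) ∈ K) (z : ℂ × ℂ) :
    ∃ v ∈ K, ‖z + v‖ ≤ |(z.1 + z.2).re| + |m| + |s| + |t| := by
  obtain ⟨k, a⟩ := ex_red m m0 z.1.re
  obtain ⟨k1, b⟩ := ex_red s s0 (z.1.im + k * r)
  obtain ⟨k2, c⟩ := ex_red t t0 (z.2.im + k * r')
  refine ⟨_, K.add_mem (K.zsmul_mem h3 k) (K.add_mem (K.zsmul_mem h1 k1) (K.zsmul_mem h2 k2)),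
    norm_prod_le_iff.2 ⟨(norm_le_abs_re_add_abs_im _).trans ?_,
      (norm_le_abs_re_add_abs_im _).trans ?_⟩⟩
  · simp only [Prod.fst_add, Prod.smul_mk, zsmul_eq_mul, add_re, add_im, mul_re, mul_im, intCast_re,
      intCast_im, ofReal_re, ofReal_im, I_re, I_im, mul_zero, zero_mul, mul_one, sub_zero, add_zero,
      zero_add, ← add_assoc]
    linarith [abs_nonneg (z.1.re + z.2.re), abs_nonneg t]
  · simp only [Prod.snd_add, Prod.smul_mk, zsmul_eq_mul, add_re, add_im, mul_re, mul_im, intCast_re,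
      intCast_im, ofReal_re, ofReal_im, I_re, I_im, mul_zero, zero_mul, mul_one, sub_zero, add_zero,
      zero_add, ← add_assoc, neg_re, neg_im, neg_zero]
    have := abs_sub (z.1.re + z.2.re) (z.1.re + k * m)
    rw [show z.1.re + z.2.re - (z.1.re + k * m) = z.2.re + k * -m by ring] at this
    linarith [abs_nonneg s]

theorem const0 {F : ℂ × ℂ → ℂ} (hF : Differentiable ℂ F) {s t m r r' : ℝ} (h : Irrational (s / t))
    (m0 : m ≠ 0) (h1 : ((s * I, 0) : ℂ × ℂ) ∈ Per F) (h2 : ((0, t * I) : ℂ × ℂ) ∈ Per F)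
    (h3 : ((m + r * I, -m + r' * I) : ℂ × ℂ) ∈ Per F) (z : ℂ × ℂ) : F z = F 0 := by
  have s0 : s ≠ 0 := fun e => h.ne_zero (by rw [e, zero_div])
  have t0 : t ≠ 0 := fun e => h.ne_zero (by rw [e, div_zero])
  have e : ∀ c u : ℂ, F (u, c - u) = F (0, c) := fun c u => by
    obtain ⟨M, hM⟩ := (isCompact_closedBall (0 : ℂ × ℂ)
      (|c.re| + |m| + |s| + |t|)).exists_bound_of_continuousOn hF.continuous.continuousOn
    have := Differentiable.apply_eq_apply_of_bounded (f := fun u : ℂ => F (u, c - u))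
      (hF.comp (by fun_prop)) (isBounded_iff_forall_norm_le.2 ⟨M, ?_⟩) u 0
    · rwa [sub_zero] at this
    rintro _ ⟨u, rfl⟩
    obtain ⟨v, a, b⟩ := ex_box s0 t0 m0 h1 h2 h3 (u, c - u)
    rw [add_sub_cancel] at b
    exact (congrArg norm (a (u, c - u))).ge.trans (hM _ (mem_closedBall_zero_iff.2 b))
  have := const_of_irr (e := fun c => F (0, c)) (hF.comp (by fun_prop)) h (fun c => by
    have := h1 (0, c)
    rw [← e (c + s * I) (s * I), ← this]
    simp) (fun c => by simpa using h2 (0, c)) (z.1 + z.2)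
  rw [← e _ z.1, add_sub_cancel_left] at this
  exact this

end Vale.Agent.P300LN
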