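import Vale.Agent.P300LS.Stmt
import Vale.Agent.P300LN.Cst

/-!
# P300, block NS: the data of the end of the proof
-/

open scoped Manifold ContDiff Topology
open Filter Set Complex

noncomputable section

namespace Vale.Agent.P300LN

/-- the lattice `(ℤ + ℤ i) × (ℤ + ℤ √2 i)` -/
abbrev Lt : Type := (ℤ × ℤ) × (ℤ × ℤ)

/-- its vectors -/
def vec : Lt →+ ℂ × ℂ where
  toFun g := (g.1.1 + g.1.2 * I, g.2.1 + g.2.2 * ((√2 : ℝ) * I))
  map_zero' := by simp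
  map_add' a b := by
    simp only [Prod.fst_add, Prod.snd_add, Int.cast_add, Prod.mk_add_mk, Prod.mk.injEq]
    exact ⟨by ring, by ring⟩

/-- the image of the segment from `z` to `z + v` is a contractible loop -/
def Null {Y : Type} [TopologicalSpace Y] (Ψ : ℂ × ℂ → Y) (z v : ℂ × ℂ) : Prop :=
  ∃ D : C(unitInterval × unitInterval, Y), (∀ t : unitInterval, D (0, t) = Ψ (z + (t : ℝ) • v)) ∧
    ∀ s : unitInterval, D (1, s) = Ψ z ∧ D (s, 0) = Ψ z ∧ D (s, 1) = Ψ z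

/-- an embedded product of two elliptic curves whose fundamental group has an image of rank one,
and a map to a torus which contracts it and is injective elsewhere -/
structure End (E : Type) [NormedAddCommGroup E] [NormedSpace ℂ E] (Y : Type) [TopologicalSpace Y]
    [ChartedSpace E Y] where
  Ψ : ℂ × ℂ → Y
  hol : ContMDiff 𝓘(ℂ, ℂ × ℂ) 𝓘(ℂ, E) ω Ψ
  imm : ∀ z, Function.Injective (mfderiv 𝓘(ℂ, ℂ × ℂ) 𝓘(ℂ, E) Ψ z)
  eq : ∀ z z', Ψ z = Ψ z' ↔ ∃ g, z' = z + vec g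
  φ : Lt →+ ℤ
  ne1 : ∃ a, φ (a, 0) ≠ 0
  ne2 : ∃ b, φ (0, b) ≠ 0
  per : ∀ g, φ g = 0 → ∃ (N : ℕ) (z : ℂ × ℂ), 0 < N ∧ Null Ψ z (N • vec g)
  inj : ∀ g, Null Ψ 0 (vec g) → φ g = 0
  F : Type
  [nF : NormedAddCommGroup F]
  [sF : NormedSpace ℂ F]
  T : Type
  [tT : TopologicalSpace T]
  pr : F → T
  cov : IsCoveringMap pr
  tr : ∀ x x' u, pr x = pr x' → pr (x + u) = pr (x' + u)
  q : Y → T
  qc : Continuous q
  loc : ∀ y, ∃ h : Y → F, ContMDiffAt 𝓘(ℂ, E) 𝓘(ℂ, F) ω h y ∧ ∀ᶠ y' in 𝓝 y, pr (h y') = q y'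
  fib : ∀ y y', q y = q y' → y = y' ∨ (y ∈ range Ψ ∧ y' ∈ range Ψ)

attribute [instance] End.nF End.sF End.tT

/-- **NS** -/
def NS : Prop := ∀ (n : ℕ) (Y : Type) [TopologicalSpace Y] [ChartedSpace (Fin n → ℂ) Y]
  [IsManifold 𝓘(ℂ, Fin n → ℂ) ω Y] [T2Space Y], End (Fin n → ℂ) Y →
  ∀ (V : Type) [TopologicalSpace V] [ChartedSpace (Fin n → ℂ) V] (p : V → Y),
    P300.Final.IsUniversalCovering (Fin n → ℂ) p →
    P300LS.NoCurve (Fin n → ℂ) V ∧ ¬ P300.HolomorphicallyConvex (Fin n → ℂ) V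

end Vale.Agent.P300LN
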