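import Vale.Agent.P300LG.Defs2

/-!
# P300LG, block PART: a side with a missing line
-/

open Set Complex
open Vale.Agent.P272.K (Cm)
open Vale.Agent.P300LX Vale.Agent.P300LX.Dat Vale.Agent.P300LG

noncomputable section

namespace Vale.Agent.P300LN

theorem ray {X : Cm 2} {u1 u2 : ℝ} (hu : 0 < u1 ^ 2 + u2 ^ 2)
    (h : -(tt X * (u1 + u2 * I)) ∉ slitPlane) :
    ∃ l : ℝ, 0 ≤ l ∧ ∀ n, hp n X = l * (n.1 * u1 + n.2 * u2) := by
  simp only [mem_slitPlane_iff, not_or, not_lt, not_not, neg_re, neg_im, mul_re, mul_im, add_re,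
    add_im, ofReal_re, ofReal_im, I_re, I_im, mul_zero, mul_one, sub_zero, add_zero, zero_add,
    neg_eq_zero, neg_nonpos] at h
  refine ⟨_, div_nonneg h.1 hu.le, fun n => ?_⟩
  rw [hp, div_mul_eq_mul_div, eq_div_iff hu.ne']
  linear_combination (n.1 * u2 - n.2 * u1) * h.2

theorem ex_dir {ε y2 ρ : ℝ} (hP : Par ε y2 ρ) {S : Finset (Fin 7)}
    (hS : 4 ∉ S ∨ 5 ∉ S ∨ 6 ∉ S ∨ 0 ∉ S ∨ (2 ∉ S ∧ 3 ∉ S)) : ∃ u : ℂ, u ≠ 0 ∧ ∀ X, nq X ≤ ε →
      ∀ i ∈ S, lb (bb y2 i) X ∉ slitPlane → -(tt X * u) ∈ slitPlane := by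
  have key : ∀ u1 u2 : ℝ, 0 < u1 ^ 2 + u2 ^ 2 → (0 ∈ S → u1 + u2 ≤ 0) →
      (1 ∈ S → u1 + u2 ≤ 0 ∨ 7 * u1 - 3 * u2 ≤ 0) → (2 ∈ S → 7 * u1 - 3 * u2 ≤ 0) →
      (3 ∈ S → 7 * u1 - 3 * u2 ≤ 0) → (4 ∈ S → 0 ≤ u1 + u2 ∨ 0 ≤ u2) →
      (5 ∈ S → 0 ≤ u1 + u2 ∨ 0 ≤ 7 * u1 - 3 * u2) → (6 ∈ S → 0 ≤ 7 * u1 - 3 * u2 ∨ u2 ≤ 0) →
      ∃ u : ℂ, u ≠ 0 ∧ ∀ X, nq X ≤ ε → ∀ i ∈ S, lb (bb y2 i) X ∉ slitPlane →
        -(tt X * u) ∈ slitPlane := by
    intro u1 u2 hu c0 c1 c2 c3 c4 c5 c6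
    refine ⟨u1 + u2 * I, fun e => ?_, fun X hX i hi h => by_contra fun n => ?_⟩
    · have a := congrArg re e
      have b := congrArg im e
      simp at a b
      simp [a, b] at hu
    obtain ⟨l, l0, e⟩ := ray hu n
    have e1 := e (1, 1)
    have e2 := e (7, -3)
    have e3 := e (0, 1)
    simp only at e1 e2 e3
    fin_cases i
    · nlinarith [h0 hP hX h, c0 hi]
    · rcases c1 hi with c | c <;> nlinarith [h1 hP hX h]
    · nlinarith [h2 hP hX h, c2 hi]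
    · nlinarith [h3 hP hX h, c3 hi]
    · rcases c4 hi with c | c <;> nlinarith [h4 hP.e2 hX h]
    · rcases c5 hi with c | c <;> nlinarith [h5 hP.e2 hX h]
    · rcases c6 hi with c | c <;> nlinarith [h6 hP.e2 hX h]
  rcases hS with h | h | h | h | h
  · refine key (-3) (-7) ?_ ?_ ?_ ?_ ?_ (absurd · h) ?_ ?_ <;> norm_num
  · refine key (-1) 0 ?_ ?_ ?_ ?_ ?_ ?_ (absurd · h) ?_ <;> norm_num
  · refine key (-1) 1 ?_ ?_ ?_ ?_ ?_ ?_ ?_ (absurd · h) <;> norm_num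
  · refine key 3 7 ?_ (absurd · h) ?_ ?_ ?_ ?_ ?_ ?_ <;> norm_num
  · refine key 1 (-1) ?_ ?_ ?_ (absurd · h.1) (absurd · h.2) ?_ ?_ ?_ <;> norm_num

theorem part : PART := by
  intro D A y2 ρ hP K M s hS
  obtain ⟨u, u0, hu⟩ := ex_dir hP hS
  have cs : Continuous (sd s) := by
    cases s
    · exact continuous_id
    · exact continuous_pi fun a => by fin_cases a <;> simp [sd, rr] <;> fun_prop
  have cY : ContinuousOn (fun z => sd s (M.X z)) K := cs.comp_continuousOn M.cX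
  have cl : ∀ i, ContinuousOn (fun z => lb (bb y2 i) (sd s (M.X z))) K := fun i =>
    (by unfold lb; fun_prop : Continuous (lb (bb y2 i))).comp_continuousOn cY
  have nY : ∀ z ∈ K, nq (sd s (M.X z)) ≤ A.ε := fun z hz => (nq_sd s _).trans_le (M.nX z hz)
  let C : Set (Cm 2) := ⋃ i ∈ M.S s, K ∩ (fun z => lb (bb y2 i) (sd s (M.X z))) ⁻¹' slitPlaneᶜ
  have mC : ∀ z ∈ C, z ∈ K ∧ ∃ i ∈ M.S s, lb (bb y2 i) (sd s (M.X z)) ∉ slitPlane := fun z hz => by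
    obtain ⟨i, hi, h⟩ := mem_iUnion₂.1 hz
    exact ⟨h.1, i, hi, h.2⟩
  have nC : ∀ y ∈ (π ⁻¹' K \ π ⁻¹' C : Set D.Xh), ∀ i ∈ M.S s,
      lb (bb y2 i) (sd s (M.X (π y))) ∈ slitPlane := fun y hy i hi =>
    by_contra fun n => hy.2 (mem_iUnion₂.2 ⟨i, hi, hy.1, n⟩)
  have sl : ∀ z ∈ C, -(tt (sd s (M.X z)) * u) ∈ slitPlane := fun z hz =>
    let ⟨h, i, hi, k⟩ := mC z hz
    hu _ (nY z h) i hi k
  exact ⟨{
    Cut := π ⁻¹' C
    τ := fun _ => 1
    ω := w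
    σ := fun y => ∏ i ∈ M.S s, exp (log (lb (bb y2 i) (sd s (M.X (π y)))) / 2)
    L := fun y => log (-(tt (sd s (M.X (π y))) * u)) - log (-u)
    R := fun z => ∏ i ∈ M.S s, exp (log (lb (bb y2 i) (sd s (M.X z))) / 2)
    sub := fun y hy => (mC _ hy).1
    cl := ((M.S s).finite_toSet.isClosed_biUnion fun i _ => (cl i).preimage_isClosed_of_isClosed
      M.cpt.isClosed isOpen_slitPlane.isClosed_compl).preimage cont_π
    cτ := continuousOn_const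
    cω := cont_w.continuousOn
    cσ := continuousOn_finsetProd _ fun i hi => ((((cl i).comp cont_π.continuousOn
      fun _ hy => hy.1).clog fun y hy => nC y hy i hi).div_const 2).cexp
    σ0 := fun y _ => Finset.prod_ne_zero_iff.2 fun _ _ => exp_ne_zero _
    w_eq := fun y _ => (one_mul _).symm
    rt_eq := fun y _ => one_mul _
    sq := fun y hy => by
      rw [one_mul, ← Finset.prod_pow]
      refine Finset.prod_congr rfl fun i hi => ?_
      rw [sq, ← exp_add, add_halves, exp_log (slitPlane_ne_zero (nC y hy i hi))]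
    ex := fun y _ h => absurd h one_ne_zero
    cL := ((((by unfold tt; fun_prop : Continuous tt).comp_continuousOn (cY.comp
      cont_π.continuousOn fun y hy => (mC _ hy).1)).mul continuousOn_const).neg.clog
        fun y hy => sl _ hy).sub continuousOn_const
    eL := fun y hy => by
      rw [exp_sub, exp_log (slitPlane_ne_zero (sl _ hy)), exp_log (neg_ne_zero.2 u0), neg_div_neg_eq,
        mul_div_cancel_right₀ _ u0]
    pos := fun y hy =>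
      let ⟨h, _, _, k⟩ := mC _ hy
      qq_beh hP (nY _ h) k }⟩

end Vale.Agent.P300LN
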