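import Vale.Agent.P300LN.Defs

/-!
# P300, block NS: the linear form attached to the character of the lattice
-/

open Filter Set Metric Complex

noncomputable section

namespace Vale.Agent.P300LN

theorem ex_dom (z : ℂ × ℂ) : ∃ g, ‖z + vec g‖ ≤ 3 := by
  obtain ⟨a, ha⟩ := ex_red 1 one_ne_zero z.1.re
  obtain ⟨b, hb⟩ := ex_red 1 one_ne_zero z.1.im
  obtain ⟨c, hc⟩ := ex_red 1 one_ne_zero z.2.re
  obtain ⟨d, hd⟩ := ex_red √2 (by positivity) z.2.im
  have : |√2| ≤ 2 := by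
    rw [abs_of_nonneg (Real.sqrt_nonneg _)]
    exact Real.sqrt_le_iff.2 ⟨by norm_num, by norm_num⟩
  rw [abs_one, mul_one] at ha hb hc
  refine ⟨((a, b), (c, d)), norm_prod_le_iff.2 ⟨(norm_le_abs_re_add_abs_im _).trans ?_,
    (norm_le_abs_re_add_abs_im _).trans ?_⟩⟩
  · simp [vec]; linarith
  · simp [vec]; linarith

variable (φ : Lt →+ ℤ)

theorem phi_split (g : Lt) : φ g = φ (g.1, 0) + φ (0, g.2) := by
  rw [← map_add]; simp

theorem phi1 (a : ℤ × ℤ) : φ (a, 0) = a.1 * φ ((1, 0), 0) + a.2 * φ ((0, 1), 0) := by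
  rw [← smul_eq_mul, ← smul_eq_mul, ← map_zsmul, ← map_zsmul, ← map_add]; simp

theorem phi2 (a : ℤ × ℤ) : φ (0, a) = a.1 * φ (0, (1, 0)) + a.2 * φ (0, (0, 1)) := by
  rw [← smul_eq_mul, ← smul_eq_mul, ← map_zsmul, ← map_zsmul, ← map_add]; simp

/-- the coefficient on the first factor -/
def al1 : ℂ := φ ((1, 0), 0) - φ ((0, 1), 0) * I

/-- the coefficient on the second factor -/
def al2 : ℂ := φ (0, (1, 0)) - φ (0, (0, 1)) * ((√2)⁻¹ : ℝ) * I

theorem al1_vec (g : Lt) : al1 φ * (vec g).1 =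
    (φ (g.1, 0) : ℝ) + ((φ ((1, 0), 0) * g.1.2 - φ ((0, 1), 0) * g.1.1 : ℤ) : ℝ) * I := by
  rw [phi1]
  apply Complex.ext <;> simp [al1, vec] <;> ring

theorem al2_vec (g : Lt) : al2 φ * (vec g).2 = (φ (0, g.2) : ℝ) +
    (((2 * φ (0, (1, 0)) * g.2.2 - φ (0, (0, 1)) * g.2.1 : ℤ) : ℝ) / √2 : ℝ) * I := by
  have h : √2 * √2 = 2 := Real.mul_self_sqrt (by norm_num)
  have h0 : √2 ≠ 0 := by positivity
  rw [phi2]
  apply Complex.ext
  · simp only [al2, vec, AddMonoidHom.coe_mk, ZeroHom.coe_mk, mul_re, mul_im, add_re, add_im, sub_re,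
      sub_im, intCast_re, intCast_im, ofReal_re, ofReal_im, I_re, I_im]
    push_cast
    field_simp
    ring
  · simp only [al2, vec, AddMonoidHom.coe_mk, ZeroHom.coe_mk, mul_re, mul_im, add_re, add_im, sub_re,
      sub_im, intCast_re, intCast_im, ofReal_re, ofReal_im, I_re, I_im]
    push_cast
    field_simp
    linear_combination (φ (0, (1, 0)) * g.2.2 : ℝ) * h

/-- the linear form -/
def ell (z : ℂ × ℂ) : ℂ := al1 φ * z.1 + al2 φ * z.2

theorem ell_add (z w : ℂ × ℂ) : ell φ (z + w) = ell φ z + ell φ w := by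
  simp only [ell, Prod.fst_add, Prod.snd_add]; ring

theorem ell_re (g : Lt) : (ell φ (vec g)).re = φ g := by
  rw [ell, al1_vec, al2_vec, phi_split φ g]
  simp only [add_re, re_ofReal_mul, ofReal_re, I_re, mul_zero, add_zero, Int.cast_add]

theorem ell_leaf {g : Lt} (h : ell φ (vec g) = 0) : (al1 φ * (vec g).1).im = 0 := by
  have e := congrArg im h
  rw [ell, al2_vec, add_im] at e
  rw [al1_vec] at e ⊢
  simp only [add_im, im_ofReal_mul, ofReal_im, I_im, mul_one, zero_add, zero_im] at e ⊢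
  by_contra n
  refine (irrational_sqrt_two.intCast_mul (Int.cast_ne_zero.1 n)).ne_int
    (-(2 * φ (0, (1, 0)) * g.2.2 - φ (0, (0, 1)) * g.2.1)) ?_
  rw [Int.cast_neg, eq_neg_of_add_eq_zero_left e, neg_mul, div_mul_cancel₀ _ (by positivity)]

variable {φ}

theorem al1_ne {a : ℤ × ℤ} (h : φ (a, 0) ≠ 0) : al1 φ ≠ 0 := fun e => by
  have := congrArg re (al1_vec φ (a, 0))
  simp [e] at this
  exact h (by exact_mod_cast this.symm)

theorem al2_ne {b : ℤ × ℤ} (h : φ (0, b) ≠ 0) : al2 φ ≠ 0 := fun e => by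
  have := congrArg re (al2_vec φ (0, b))
  simp only [e, zero_mul, zero_re, add_re, re_ofReal_mul, ofReal_re, I_re, mul_zero,
    add_zero] at this
  exact h (by exact_mod_cast this.symm)

theorem const1 {a b : ℤ × ℤ} (ha : φ (a, 0) ≠ 0) (hb : φ (0, b) ≠ 0) {F : ℂ × ℂ → ℂ}
    (hF : Differentiable ℂ F) (H : ∀ g, φ g = 0 → ∃ N : ℕ, 0 < N ∧ vec (N • g) ∈ Per F)
    (z : ℂ × ℂ) : F z = F 0 := by
  have n1 := al1_ne ha
  have n2 := al2_ne hb
  let G : ℂ × ℂ → ℂ := fun u => F (u.1 / al1 φ, u.2 / al2 φ)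
  have P : ∀ v ∈ Per F, (al1 φ * v.1, al2 φ * v.2) ∈ Per G := fun v hv u => by
    simp only [G, Prod.fst_add, Prod.snd_add, add_div, mul_div_cancel_left₀ _ n1,
      mul_div_cancel_left₀ _ n2]
    exact hv (u.1 / al1 φ, u.2 / al2 φ)
  set p1 := φ ((1, 0), 0) with hp1
  set q1 := φ ((0, 1), 0) with hq1
  set p2 := φ (0, (1, 0)) with hp2
  set q2 := φ (0, (0, 1)) with hq2
  have z1 : φ ((q1, -p1), 0) = 0 := by rw [phi1]; ring
  have z2 : φ (0, (q2, -p2)) = 0 := by rw [phi2]; ring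
  obtain ⟨N1, a1, h1⟩ := H _ z1
  obtain ⟨N2, a2, h2⟩ := H _ z2
  obtain ⟨N3, a3, h3⟩ := H (φ (0, b) • a, -φ (a, 0) • b) (by
    rw [phi_split, show (φ (0, b) • a, (0 : ℤ × ℤ)) = φ (0, b) • (a, 0) by simp,
      show ((0 : ℤ × ℤ), -φ (a, 0) • b) = -φ (a, 0) • (0, b) by simp, map_zsmul, map_zsmul]
    simp only [smul_eq_mul]; ring)
  have s1 : p1 ^ 2 + q1 ^ 2 ≠ 0 := fun e => ha (by
    rw [phi1, ← hp1, ← hq1, (by nlinarith : p1 = 0), (by nlinarith : q1 = 0)]; ring)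
  have s2 : 2 * p2 ^ 2 + q2 ^ 2 ≠ 0 := fun e => hb (by
    rw [phi2, ← hp2, ← hq2, (by nlinarith : p2 = 0), (by nlinarith : q2 = 0)]; ring)
  replace h1 := P _ h1
  replace h2 := P _ h2
  replace h3 := P _ h3
  rw [al1_vec, al2_vec, phi1, phi2, ← hp1, ← hp2, ← hq1, ← hq2] at h1 h2 h3
  rw [phi1, phi2, ← hp1, ← hp2, ← hq1, ← hq2] at h3
  simp only [Prod.smul_fst, Prod.smul_snd] at h1 h2 h3
  simp only [nsmul_eq_mul, smul_eq_mul, Prod.fst_zero, Prod.snd_zero, mul_zero, zero_mul, add_zero,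
    sub_zero, Int.cast_zero, ofReal_zero, zero_div] at h1 h2 h3
  rw [show (N1 : ℤ) * q1 * p1 + N1 * -p1 * q1 = 0 by ring, Int.cast_zero, ofReal_zero, zero_add,
    show p1 * (N1 * -p1) - q1 * (N1 * q1) = (p1 ^ 2 + q1 ^ 2) * -N1 by ring] at h1
  rw [show (N2 : ℤ) * q2 * p2 + N2 * -p2 * q2 = 0 by ring, Int.cast_zero, ofReal_zero, zero_add,
    show 2 * p2 * (N2 * -p2) - q2 * (N2 * q2) = (2 * p2 ^ 2 + q2 ^ 2) * -N2 by ring] at h2
  rw [phi1, ← hp1, ← hq1] at ha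
  rw [phi2, ← hp2, ← hq2] at hb
  generalize hu : a.1 * p1 + a.2 * q1 = u at *
  generalize hv : b.1 * p2 + b.2 * q2 = v at *
  rw [show N3 * (v * a.1) * p1 + N3 * (v * a.2) * q1 = N3 * v * u by rw [← hu]; ring,
    show N3 * (-u * b.1) * p2 + N3 * (-u * b.2) * q2 = -(N3 * v * u) by rw [← hv]; ring,
    Int.cast_neg, ofReal_neg] at h3
  have := const0 (F := G) (by fun_prop) ?_
    (Int.cast_ne_zero.2 (mul_ne_zero (mul_ne_zero (by omega) hb) ha)) h1 h2 h3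
    (al1 φ * z.1, al2 φ * z.2)
  · simp only [G, mul_div_cancel_left₀ _ n1, mul_div_cancel_left₀ _ n2, Prod.fst_zero,
      Prod.snd_zero, zero_div] at this
    exact this
  · rw [div_div_eq_mul_div]
    exact (irrational_sqrt_two.intCast_mul (mul_ne_zero s1 (by omega))).div_intCast
      (mul_ne_zero s2 (by omega))

end Vale.Agent.P300LN
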