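import Vale.Agent.P300L.Jo

/-!
# P300, block END: the embedded product of elliptic curves and the map to the torus
-/

open scoped Manifold ContDiff Topology
open Set Filter Function
open Vale.Agent.P272.K (Cm Chart At)
open Vale.Agent.P281Z Vale.Agent.P300L
open Vale.Agent.P277Z (Hol at_chart)
open Vale.Agent.P300LZ (Surf)

noncomputable section

namespace Vale.Agent.P300LN

theorem cov_prod {E X E' X' : Type} [TopologicalSpace E] [TopologicalSpace X] [TopologicalSpace E']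
    [TopologicalSpace X'] {f : E → X} {g : E' → X'} (hf : IsCoveringMap f) (hg : IsCoveringMap g) :
    IsCoveringMap (Prod.map f g) := fun x => by
  obtain ⟨_, U, a1, a2, a3, H, a4⟩ := hf x.1
  obtain ⟨_, U', b1, b2, b3, H', b4⟩ := hg x.2
  refine IsEvenlyCovered.to_isEvenlyCovered_preimage (I := f ⁻¹' {x.1} × g ⁻¹' {x.2})
    ⟨inferInstance, U ×ˢ U', ⟨a1, b1⟩, a2.prod b2, a3.prod b3,
      (Homeomorph.Set.prod (f ⁻¹' U) (g ⁻¹' U')).trans ((H.prodCongr H').trans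
        ((Homeomorph.prodProdProdComm _ _ _ _).trans
          ((Homeomorph.Set.prod U U').symm.prodCongr (Homeomorph.refl _)))), fun y => ?_⟩
  exact Prod.ext (a4 ⟨y.1.1, y.2.1⟩) (b4 ⟨y.1.2, y.2.2⟩)

theorem phi_an {τ : ℂ} (P : Surf τ) (a : Fin 2) (w : Cm 2) : HolA 2 2 (fun w => P.Φ (w a)) w :=
  .of_an (P.cont.comp (continuous_apply a)).continuousAt (at_chart _) (at_chart _)
    (AnalyticAt.fun_comp (f := fun w : Cm 2 => w a) (P.hol _ _ (at_chart _)).1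
      ((ContinuousLinearMap.proj a : Cm 2 →L[ℂ] ℂ).analyticAt w))

theorem phi_df {τ : ℂ} (P : Surf τ) (a : Fin 2) (w v : Cm 2)
    (h : df (fun w => P.Φ (w a)) (chartAt (Cm 2) w) (chartAt (Cm 2) (P.Φ (w a))) w v = 0) :
    v a = 0 := by
  obtain ⟨h1, h2⟩ := P.hol (w a) _ (at_chart _)
  have := (h1.differentiableAt.hasDerivAt.hasFDerivAt.comp w
    (ContinuousLinearMap.proj a : Cm 2 →L[ℂ] ℂ).hasFDerivAt).fderiv
  exact (smul_eq_zero.1 ((congrArg (fun f : Cm 2 →L[ℂ] Cm 2 => f v) this).symm.trans h)).resolve_right h2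

theorem mf_inj {n : ℕ} {Y : Type} [TopologicalSpace Y] [ChartedSpace (Cm n) Y] {f : Cm 2 → Y}
    (L : (ℂ × ℂ) ≃L[ℂ] Cm 2) {z : ℂ × ℂ} (h : HolA 2 n f (L z)) (i : Imm 2 n f (L z)) :
    Injective (mfderiv 𝓘(ℂ, ℂ × ℂ) 𝓘(ℂ, Cm n) (f ∘ L) z) := by
  have d := h.mdifferentiableAt (by simp)
  rw [mfderiv_comp z d L.mdifferentiableAt, L.mfderiv_eq, d.mfderiv]
  simp only [modelWithCornersSelf_coe, range_id, fderivWithin_univ]
  exact (i _ _ (at_chart _) (at_chart _)).comp L.injective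

/-- the character -/
def phi (P : Surf Complex.I) (Q : Surf t₂) : Lt →+ ℤ := P.φ.coprod Q.φ

/-- the two topological fields -/
def TOP : Prop := PUSH → ∀ (P : Surf Complex.I) (Q : Surf t₂) (T : Tor 11)
  (p₁ : Cm ((pk P Q).N₁ * T.M) →L[ℂ] Cm 17) (p₂ : Cm ((pk P Q).N₂ * T.M) →L[ℂ] Cm 17),
  (pk P Q).Ok → (jo (pk P Q) T p₁ p₂).Pre → (jo (pk P Q) T p₁ p₂).Gen →
  Fit (pk P Q) T (T.π 0) p₁ p₂ → ∀ (Y : Mf 10) (i : Y.X → (jo (pk P Q) T p₁ p₂).S.X)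
    (lam : (jo (pk P Q) T p₁ p₂).κ → Y.X → ℂ),
    Emb 10 (2 + 2 + 11 + 11) i (connectedComponentIn (jo (pk P Q) T p₁ p₂).Z
      (((P.Φ 0, Q.Φ 0), T.π 0), T.π 0)) →
    (jo (pk P Q) T p₁ p₂).Sec i lam →
    (∀ y, (jo (pk P Q) T p₁ p₂).On (i y) fun b => lam b y) →
    ∀ Ψ : ℂ × ℂ → Y.X, (∀ z, i (Ψ z) = (((P.Φ z.1, Q.Φ z.2), T.π 0), T.π 0)) →
      (∀ g : Lt, P.φ g.1 + Q.φ g.2 = 0 → ∃ (N : ℕ) (z : ℂ × ℂ), 0 < N ∧ Null Ψ z (N • vec g)) ∧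
        ∀ g : Lt, Null Ψ 0 (vec g) → P.φ g.1 + Q.φ g.2 = 0

theorem end_of (H : TOP) : P300L.END := by
  intro h P Q T p₁ p₂ ok pre gen fit Y i lam e s o
  have j1 : HolM 2 (2 + 2) fun w : Cm 2 => P.X.pair Q.X (P.Φ (w 0)) (Q.Φ (w 1)) := fun w =>
    (phi_an P 0 w).pair (phi_an Q 1 w)
  have j2 := j1.pair (V := P.X.prod Q.X) (holM_const (T.π 0))
  have j3 := j2.pair (V := (P.X.prod Q.X).prod T.B) (holM_const (T.π 0))
  obtain ⟨f, f1, f2⟩ := e.lift j3 fun w => (isPreconnected_range j3.cont).subset_connectedComponentIn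
    ⟨0, rfl⟩ (range_subset_iff.2 fun w => mem_Z fit ⟨⟨_, rfl⟩, ⟨_, rfl⟩⟩) ⟨w, rfl⟩
  have f3 : ∀ w, Imm 2 10 f w := fun w => .of_comp (e.hol.at _) (f1.at w) (funext f2 ▸
    ((((imm_pair (phi_an P 0 w) (phi_an Q 1 w) (at_chart _) (at_chart _) (at_chart _)).2
      fun v a b => funext (Fin.forall_fin_two.2 ⟨phi_df P 0 w v a, phi_df Q 1 w v b⟩)).pair_left
        (j1.at w) ((holM_const _).at w)).pair_left (j2.at w) ((holM_const _).at w)))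
  let L := (ContinuousLinearEquiv.finTwoArrow ℂ ℂ).symm
  have f4 : ∀ z, i ((f ∘ L) z) = (((P.Φ z.1, Q.Φ z.2), T.π 0), T.π 0) := fun z => f2 (L z)
  obtain ⟨per, inj⟩ := H h P Q T p₁ p₂ ok pre gen fit Y i lam e s o _ f4
  have q1 : HolM 10 11 fun y => (i y).1.2 := (hol_p2 (V := P.X.prod Q.X)).comp
    ((hol_p1 (V := (P.X.prod Q.X).prod T.B)).comp e.hol)
  have q2 : HolM 10 11 fun y => (i y).2 := (hol_p2 (V := (P.X.prod Q.X).prod T.B)).comp e.hol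
  obtain ⟨a, ha⟩ := DFunLike.ne_iff.1 P.φne
  obtain ⟨b, hb⟩ := DFunLike.ne_iff.1 Q.φne
  have an : ∀ {h : T.B.X → Cm 11} {x}, (∀ a, Hol 11 (fun y => h y a) x) → HolA 11 11 h x :=
    fun k => .of_hol (AnV.pi k).cont (at_chart _) k
  refine ⟨{
    Ψ := f ∘ L
    hol := ContMDiff.comp f1 L.contDiff.contMDiff
    imm := fun z => mf_inj L (f1.at _) (f3 _)
    eq := fun z z' => ?_
    φ := phi P Q
    ne1 := ⟨a, by simpa [phi] using ha⟩
    ne2 := ⟨b, by simpa [phi] using hb⟩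
    per := per
    inj := inj
    F := Cm 11 × Cm 11
    T := T.B.X × T.B.X
    pr := Prod.map T.π T.π
    cov := cov_prod T.cov T.cov
    tr := fun x x' u k => Prod.ext (T.tr _ _ _ (congrArg Prod.fst k))
      (T.tr _ _ _ (congrArg Prod.snd k))
    q := fun y => ((i y).1.2, (i y).2)
    qc := q1.cont.prodMk q2.cont
    loc := fun y => ?_
    fib := fun y y' k => ?_ }⟩
  · rw [← e.inj.eq_iff, f4, f4]
    refine ⟨fun k => ?_, fun ⟨g, k⟩ => ?_⟩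
    · obtain ⟨g, hg⟩ := (P.inj _ _).1 (congrArg (fun x => x.1.1.1) k)
      obtain ⟨g', hg'⟩ := (Q.inj _ _).1 (congrArg (fun x => x.1.1.2) k)
      exact ⟨(g, g'), Prod.ext hg hg'⟩
    · rw [(P.inj z.1 z'.1).2 ⟨g.1, congrArg Prod.fst k⟩, (Q.inj z.2 z'.2).2 ⟨g.2, congrArg Prod.snd k⟩]
  · obtain ⟨h1, a1, a2⟩ := T.loc (i y).1.2
    obtain ⟨h2, b1, b2⟩ := T.loc (i y).2
    refine ⟨fun y => (h1 (i y).1.2, h2 (i y).2), (HolA.cmp (f := fun y => (i y).1.2) (x := y) (an a1)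
      (q1.at y)).prodMk_space (HolA.cmp (f := fun y => (i y).2) (x := y) (an b1) (q2.at y)), ?_⟩
    filter_upwards [(q1.at y).cont a2, (q2.at y).cont b2] with y' h1 h2 using Prod.ext h1 h2
  · have k1 : (i y).1.2 = (i y').1.2 := (Prod.mk.inj k).1
    have k2 : (i y).2 = (i y').2 := (Prod.mk.inj k).2
    have m : ∀ y, i y ∈ (jo (pk P Q) T p₁ p₂).Z := fun y =>
      connectedComponentIn_subset _ _ (e.mem y)
    have r : ∀ y, (i y).1.1 ∈ (pk P Q).A → (i y).1.2 = T.π 0 → (i y).2 = T.π 0 →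
        y ∈ range (f ∘ L) := fun y ⟨⟨u, hu⟩, ⟨v, hv⟩⟩ h1 h2 => ⟨(u, v), e.inj ((f4 _).trans
          (Prod.ext (Prod.ext (Prod.ext hu hv) h1.symm) h2.symm))⟩
    refine (fit.fib (i y).1.1 (i y').1.1 (i y).1.2 (i y).2 (m y) (k1 ▸ k2 ▸ m y')).imp
      (fun c => e.inj (Prod.ext (Prod.ext c k1) k2)) fun c =>
        ⟨r y c.1 c.2.2.1 c.2.2.2, r y' c.2.1 (k1 ▸ c.2.2.1) (k2 ▸ c.2.2.2)⟩

end Vale.Agent.P300LN
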