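import Vale.Agent.P300LN.Lft
import Mathlib.Analysis.Normed.Module.HahnBanach

/-!
# P300, block NS: no compact curves, not holomorphically convex
-/

open scoped Manifold ContDiff Topology
open Filter Set Metric Complex Function
open Vale.Agent.P300LS

noncomputable section

namespace Vale.Agent.P300LN

variable {E : Type} [NormedAddCommGroup E] [NormedSpace ℂ E] {Y V : Type} [TopologicalSpace Y]
  [ChartedSpace E Y] [TopologicalSpace V] [ChartedSpace E V] {p : V → Y} (D : End E Y)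
  (hp : P300.Final.IsUniversalCovering E p) {Φ Φ' : ℂ × ℂ → V} {z z' : ℂ × ℂ}

theorem End.per_vec (g : Lt) : vec g ∈ Per D.Ψ := fun z => ((D.eq z _).2 ⟨g, rfl⟩).symm

include hp

theorem lf_meet (h : Lf p D.Ψ Φ) (h' : Lf p D.Ψ Φ') (e : Φ z = Φ' z') :
    ∃ g, z' = z + vec g ∧ ∀ w, Φ' (w + vec g) = Φ w := by
  obtain ⟨g, rfl⟩ := (D.eq z z').1 ((h.2 z).symm.trans ((congrArg p e).trans (h'.2 z')))
  exact ⟨g, rfl, lf_shift hp.covering.1 h h' (D.per_vec g) e.symm⟩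

theorem lf_re (h : Lf p D.Ψ Φ) (e : Φ z = Φ z') : (ell D.φ z').re = (ell D.φ z).re := by
  obtain ⟨g, rfl, a⟩ := lf_meet D hp h h e
  have := hp.simplyConnected
  rw [ell_add, add_re, ell_re, D.inj g (null_of_per hp.covering.1.continuous h (a 0)),
    Int.cast_zero, add_zero]

theorem lf_const (h : Lf p D.Ψ Φ) {f : V → ℂ} (hf : ContMDiff 𝓘(ℂ, E) 𝓘(ℂ) ω f) (z : ℂ × ℂ) :
    f (Φ z) = f (Φ 0) := by
  obtain ⟨a, ha⟩ := D.ne1
  obtain ⟨b, hb⟩ := D.ne2
  refine const1 (F := f ∘ Φ) ha hb ((hf.comp (lf_hol hp.covering.2.2 h D.hol)).contDiff.differentiable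
    (by simp)) (fun g hg => ?_) z
  obtain ⟨N, z, N0, n⟩ := D.per g hg
  rw [← map_nsmul] at n
  exact ⟨N, N0, fun w => congrArg f
    (lf_shift hp.covering.1 h h (D.per_vec _) (per_of_null hp.covering.1 h n) w)⟩

include D in
theorem not_convex [T2Space Y] : ¬ P300.HolomorphicallyConvex E V := fun H => by
  obtain ⟨k, hk⟩ := hp.covering.2.1 (D.Ψ 0)
  obtain ⟨Φ, h, -⟩ := ex_lf hp.covering.1 D.hol.continuous hk
  have c := (H {Φ 0} isCompact_singleton (singleton_nonempty _)).inter_right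
    ((isClosed_singleton (x := D.Ψ 0)).preimage hp.covering.1.continuous)
  obtain ⟨a, ha⟩ := D.ne1
  refine infinite_of_injective_forall_mem (f := fun n : ℕ => Φ (vec (n • (a, 0))))
    (fun n m e => ?_) (fun n => ?_) (fin_of c fun x hx => ?_)
  · have := lf_re D hp h e
    rw [ell_re, ell_re, map_nsmul, map_nsmul, Int.cast_inj, nsmul_eq_mul, nsmul_eq_mul] at this
    exact_mod_cast (mul_right_cancel₀ ha this).symm
  · exact ⟨fun f hf C hC => (lf_const D hp h hf _).symm ▸ hC _ rfl,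
      (h.2 _).trans ((D.eq _ _).2 ⟨_, (zero_add _).symm⟩).symm⟩
  · exact loc_eq hp.covering.1 (tendsto_id.mono_left nhdsWithin_le_nhds) tendsto_const_nhds
      (eventually_nhdsWithin_of_forall fun y hy => hy.2.trans hx.2.symm)

variable {K : Set V} (hK : IsCompact K) (c : IsPreconnected K)
  (sw : Swept E K) {k k' : V}

include hK c sw

theorem q_const (hk : k ∈ K) (hk' : k' ∈ K) : D.q (p k) = D.q (p k') := by
  have := hp.simplyConnected
  have := ChartedSpace.locallyPathConnectedSpace E V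
  obtain ⟨h₀, -, e₀⟩ := D.loc (p k)
  obtain ⟨g, ⟨-, hg⟩, -⟩ := D.cov.existsUnique_continuousMap_lifts
    ⟨D.q ∘ p, D.qc.comp hp.covering.1.continuous⟩ k _ e₀.self_of_nhds
  replace hg : ∀ v, D.pr (g v) = D.q (p v) := congrFun hg
  obtain ⟨l, -, hl⟩ := exists_dual_vector'' ℂ (g k - g k')
  have := mp hK c sw (f := fun v => (l (g v)).re) (fun x hx δ hδ => ?_) hk hk'
  · rw [← sub_eq_zero, ← sub_re, ← map_sub, hl] at this
    have e : ‖g k - g k'‖ = 0 := this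
    rw [← hg, ← hg, sub_eq_zero.1 (norm_eq_zero.1 e)]
  obtain ⟨h, h1, h2⟩ := D.loc (p x)
  have a := (hp.covering.2.2.contMDiff (δ 0)).comp 0 hδ.2.1
  have b : AnalyticAt ℂ (fun s => g x + (h (p (δ s)) - h (p x))) 0 := analyticAt_const.add
    ((h1.comp_of_eq a (congrArg p hδ.1)).contDiffAt.analyticAt.sub analyticAt_const)
  refine ⟨_, (l.analyticAt _).comp b, Eventually.mono (loc_eq D.cov ((g.continuous.tendsto x).comp
    (disc_td hδ)) (b.continuousAt.tendsto.mono_right (by simp [hδ.1])) ?_)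
      fun s e => congrArg (fun u => (l u).re) e⟩
  filter_upwards [(hp.covering.1.continuous.tendsto x).comp (disc_td hδ) h2] with s hs
  rw [D.tr _ _ _ ((hg x).trans h2.self_of_nhds.symm), add_sub_cancel]
  exact (hg _).trans (Eq.symm hs)

variable [FiniteDimensional ℂ E] [T2Space Y]

omit hK in
theorem sub_range (hA : ∀ x ∈ K, p x ∈ range D.Ψ) (h : Lf p D.Ψ Φ) (hz : Φ z ∈ K) :
    K ⊆ range Φ := by
  refine sw_ind c sw (fun x hx δ hδ => ?_) hz ⟨z, rfl⟩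
  obtain ⟨w, hw⟩ := hA x hx
  obtain ⟨Φ', h', rfl⟩ := ex_lf hp.covering.1 D.hol.continuous hw.symm
  obtain ⟨η, -, -, e⟩ := disc_lift D hp.covering h' hA hδ
  have a : ∀ u u', Φ' u ∈ range Φ → Φ' u' ∈ range Φ := by
    rintro u u' ⟨v, hv⟩
    obtain ⟨g, -, b⟩ := lf_meet D hp h' h hv.symm
    exact ⟨_, b u'⟩
  exact e.mono fun s e => e ▸ ⟨a _ _, a _ _⟩

theorem disc_const (hA : ∀ x ∈ K, p x ∈ range D.Ψ) (h : Lf p D.Ψ Φ) (hz : Φ z ∈ K) {δ : ℂ → V}
    (hδ : Disc E K (Φ z) δ) : ∀ᶠ s in 𝓝 (0 : ℂ), δ s = Φ z := by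
  have r := sub_range D hp c sw hA h hz
  have an : ∀ {η : ℂ → ℂ × ℂ}, AnalyticAt ℂ η 0 → AnalyticAt ℂ (fun s => ell D.φ (η s)) 0 :=
    fun a => (analyticAt_const.mul (analyticAt_fst.comp a)).add
      (analyticAt_const.mul (analyticAt_snd.comp a))
  have f1 : ∀ w, (ell D.φ (invFun Φ (Φ w))).re = (ell D.φ w).re := fun w =>
    lf_re D hp h (invFun_eq ⟨w, rfl⟩).symm
  have l1 : ∀ w δ, Φ w ∈ K → Disc E K (Φ w) δ → ∃ η : ℂ → ℂ × ℂ, AnalyticAt ℂ η 0 ∧ η 0 = w ∧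
      ∀ᶠ s in 𝓝 0, δ s = Φ (η s) ∧ ell D.φ (η s) = ell D.φ w := fun w δ hw hδ => by
    obtain ⟨η, a, rfl, e⟩ := disc_lift D hp.covering h hA hδ
    refine ⟨η, a, rfl, e.and (mp' hK c sw (f := fun v => (ell D.φ (invFun Φ v)).re)
      (fun x hx δ hδ => ?_) hw hδ (an a) (e.mono fun s e => e ▸ f1 _))⟩
    obtain ⟨u, rfl⟩ := r hx
    obtain ⟨η, a, -, e⟩ := disc_lift D hp.covering h hA hδ
    exact ⟨_, an a, e.mono fun s e => e ▸ f1 _⟩
  let S := {w | ell D.φ w = ell D.φ z}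
  have r' : K ⊆ Φ '' S := by
    refine sw_ind c sw (fun x hx δ hδ => ?_) hz ⟨z, rfl, rfl⟩
    obtain ⟨w, rfl⟩ := r hx
    obtain ⟨η, -, -, e⟩ := l1 w δ hx hδ
    have a : ∀ u u', ell D.φ u' = ell D.φ u → Φ u ∈ Φ '' S → Φ u' ∈ Φ '' S := by
      rintro u u' e ⟨v, hv, e'⟩
      obtain ⟨g, rfl, b⟩ := lf_meet D hp h h e'.symm
      exact ⟨_, (by rw [ell_add, e, ← ell_add] : ell D.φ (u' + vec g) = _).trans hv, b u'⟩
    exact e.mono fun s e => e.1 ▸ ⟨a _ _ e.2, a _ _ e.2.symm⟩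
  have f2 : ∀ w ∈ S, (-I * (al1 D.φ * (invFunOn Φ S (Φ w)).1)).re = (-I * (al1 D.φ * w.1)).re := by
    intro w hw
    obtain ⟨m, e⟩ := invFunOn_pos (f := Φ) (s := S) ⟨w, hw, rfl⟩
    obtain ⟨g, e, -⟩ := lf_meet D hp h h e.symm
    rw [e] at m ⊢
    have := ell_leaf D.φ (add_eq_left.1 ((ell_add _ _ _).symm.trans (m.trans (Eq.symm hw))))
    simp only [Prod.fst_add, mul_add, add_re, neg_mul, neg_re, I_mul_re, this, neg_zero, add_zero]
  have an' : ∀ {η : ℂ → ℂ × ℂ}, AnalyticAt ℂ η 0 →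
      AnalyticAt ℂ (fun s => -I * (al1 D.φ * (η s).1)) 0 :=
    fun a => analyticAt_const.mul (analyticAt_const.mul (analyticAt_fst.comp a))
  obtain ⟨η, a, rfl, e⟩ := l1 z δ hz hδ
  have := mp' hK c sw (f := fun v => (-I * (al1 D.φ * (invFunOn Φ S v).1)).re)
    (fun x hx δ hδ => ?_) hz hδ (an' a) (e.mono fun s e => e.1 ▸ f2 _ e.2)
  · obtain ⟨_, ha⟩ := D.ne1
    obtain ⟨_, hb⟩ := D.ne2
    filter_upwards [this, e] with s h1 h2
    have e1 := mul_left_cancel₀ (al1_ne ha) (mul_left_cancel₀ (neg_ne_zero.2 I_ne_zero) h1)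
    have e2 := h2.2
    rw [ell, ell, e1, add_right_inj] at e2
    rw [h2.1, Prod.ext e1 (mul_left_cancel₀ (al2_ne hb) e2)]
  obtain ⟨u, hu, rfl⟩ := r' hx
  obtain ⟨η, a, -, e⟩ := l1 u δ hx hδ
  exact ⟨_, an' a, e.mono fun s e => e.1 ▸ f2 _ (e.2.trans hu)⟩

omit hK c sw

include D in
theorem no_curve : NoCurve E V := by
  have := hp.isManifold
  refine noCurve_of fun K hK c sw k hk δ hδ => ?_
  by_cases n : p k ∈ range D.Ψ
  · obtain ⟨z, hz⟩ := id n
    obtain ⟨Φ, h, rfl⟩ := ex_lf hp.covering.1 D.hol.continuous hz.symm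
    exact disc_const D hp hK c sw (fun x hx => (D.fib _ _ (q_const D hp hK c sw hk hx)).elim
      (fun e => e ▸ n) And.right) h hk hδ
  · exact loc_eq hp.covering.1 (disc_td hδ) tendsto_const_nhds (hδ.2.2.mono fun s hs =>
      ((D.fib _ _ (q_const D hp hK c sw hk hs)).resolve_right fun e => n e.1).symm)

omit hp in
theorem ns : NS := fun _ _ _ _ _ _ D _ _ _ _ hp => ⟨no_curve D hp, not_convex D hp⟩

end Vale.Agent.P300LN
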