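import Vale.Agent.P300LN.End
import Vale.Agent.P300LN.Ns
import Vale.Agent.P300LE.Per

/-!
# P300, block END: assembly
-/

namespace Vale.Agent.P300LN

theorem top : TOP := fun h _ _ _ _ _ _ pre gen f _ _ _ e s o _ hΨ =>
  ⟨fun g k => P300LE.end_per h (by norm_num) pre gen f e hΨ g k,
    fun g k => P300LE.end_inj pre gen f e.hol.cont s o hΨ g k⟩

theorem end_ : P300L.END := end_of top

end Vale.Agent.P300LN
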