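import Vale.Agent.P300LS.Stmt
import Mathlib.Analysis.Complex.OpenMapping

/-!
# P300, block NS: the maximum principle on a compact set swept out by discs
-/

open scoped Manifold ContDiff Topology
open Filter Set Metric Complex
open Vale.Agent.P300LS

noncomputable section

namespace Vale.Agent.P300LN

variable {E : Type} [NormedAddCommGroup E] [NormedSpace ℂ E] {V : Type} [TopologicalSpace V]
  [ChartedSpace E V] {K : Set V} {k : V} {δ : ℂ → V}

theorem disc_td (h : Disc E K k δ) : Tendsto δ (𝓝 0) (𝓝 k) := h.1 ▸ h.2.1.continuousAt.tendsto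

theorem disc_sub (h : Disc E K k δ) {K₀ : Set V} (b : K₀ ∈ 𝓝[K] k) : Disc E K₀ k δ :=
  ⟨h.1, h.2.1, tendsto_nhdsWithin_iff.2 ⟨disc_td h, h.2.2⟩ b⟩

theorem fin_of (hK : IsCompact K) (h : ∀ k ∈ K, {k} ∈ 𝓝[K] k) : K.Finite := by
  obtain ⟨t, -, ht⟩ := hK.elim_nhdsWithin_subcover (fun x => {x}) h
  refine t.finite_toSet.subset fun x hx => ?_
  obtain ⟨y, hy, rfl⟩ := mem_iUnion₂.1 (ht hx)
  exact hy

theorem comp_nhds [IsManifold 𝓘(ℂ, E) ω V] (h : Swept E K) (hk : k ∈ K) :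
    connectedComponentIn K k ∈ 𝓝[K] k := by
  refine h k hk _ fun δ hδ => ?_
  obtain ⟨r, r0, hr⟩ := Metric.eventually_nhds_iff_ball.1
    (((contMDiffAt_iff_contMDiffAt_nhds (by simp)).1 hδ.2.1).and hδ.2.2)
  have c := ((convex_ball (0 : ℂ) r).isPreconnected.image δ fun s hs =>
    (hr s hs).1.continuousAt.continuousWithinAt).subset_connectedComponentIn
      ⟨0, mem_ball_self r0, hδ.1⟩ (image_subset_iff.2 fun s hs => (hr s hs).2)
  exact mem_of_superset (ball_mem_nhds 0 r0) fun s hs => c ⟨s, hs, rfl⟩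

/-- it is enough to consider connected sets -/
theorem noCurve_of [IsManifold 𝓘(ℂ, E) ω V] (H : ∀ K : Set V, IsCompact K → IsPreconnected K →
    Swept E K → ∀ k ∈ K, ∀ δ, Disc E K k δ → ∀ᶠ s in 𝓝 (0 : ℂ), δ s = k) : NoCurve E V := by
  intro K hK h
  refine fin_of hK fun k hk => h k hk _ fun δ hδ => H (connectedComponentIn K k) ?_
    isPreconnected_connectedComponentIn (fun x hx U hU => ?_) k (mem_connectedComponentIn hk) δ
    (disc_sub hδ (comp_nhds h hk))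
  · have := isCompact_iff_compactSpace.1 hK
    rw [connectedComponentIn_eq_image hk]
    exact isClosed_connectedComponent.isCompact.image continuous_subtype_val
  · have hx' := connectedComponentIn_subset K k hx
    refine nhdsWithin_mono x (connectedComponentIn_subset K k) (h x hx' U fun δ hδ => hU δ
      (disc_sub hδ ?_))
    rw [connectedComponentIn_eq hx]
    exact comp_nhds h hx'

theorem sw_ind (c : IsPreconnected K) (h : Swept E K) {A : Set V}
    (H : ∀ k ∈ K, ∀ δ, Disc E K k δ → ∀ᶠ s in 𝓝 (0 : ℂ), k ∈ A ↔ δ s ∈ A) (hk : k ∈ K)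
    (a : k ∈ A) : K ⊆ A := fun _ hx =>
  (c.induction₂' (fun x y => x ∈ A ↔ y ∈ A) (fun x hx => mem_of_superset
    (h x hx {y | x ∈ A ↔ y ∈ A} (H x hx)) fun _ e => ⟨e, e.symm⟩)
    (fun _ _ _ _ _ _ => Iff.trans) hk hx).1 a

theorem re_max {a : ℂ → ℂ} (ha : AnalyticAt ℂ a 0) (h : ∀ᶠ s in 𝓝 0, (a s).re ≤ (a 0).re) :
    ∀ᶠ s in 𝓝 0, a s = a 0 := by
  refine ha.eventually_constant_or_nhds_le_map_nhds.resolve_right fun e => ?_
  have e1 : {w : ℂ | w.re ≤ (a 0).re} ∈ 𝓝 (a 0) := e h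
  obtain ⟨x, h1, w, h2, rfl⟩ := ((frequently_gt_nhds (a 0).re).and_eventually
    (isOpenMap_re.image_mem_nhds e1)).exists
  exact h1.not_ge h2

/-- the maximum principle -/
theorem mp (hK : IsCompact K) (c : IsPreconnected K) (h : Swept E K) {f : V → ℝ}
    (hf : ∀ k ∈ K, ∀ δ, Disc E K k δ → ∃ a : ℂ → ℂ, AnalyticAt ℂ a 0 ∧
      ∀ᶠ s in 𝓝 0, f (δ s) = (a s).re) (hk : k ∈ K) {k' : V} (hk' : k' ∈ K) : f k = f k' := by
  have t : ∀ k ∈ K, ∀ δ, Disc E K k δ → Tendsto (fun s => f (δ s)) (𝓝 0) (𝓝 (f k)) := by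
    intro k hk δ hδ
    obtain ⟨a, ha, e⟩ := hf k hk δ hδ
    rw [← hδ.1, e.self_of_nhds]
    exact ((continuous_re.tendsto _).comp ha.continuousAt).congr' (e.mono fun _ e => e.symm)
  obtain ⟨m, hm, mx⟩ := hK.exists_isMaxOn ⟨k, hk⟩ (f := f) fun x hx W hW =>
    h x hx _ fun δ hδ => t x hx δ hδ hW
  have : K ⊆ {x | f x = f m} := by
    refine sw_ind c h (fun x hx δ hδ => ?_) hm rfl
    by_cases e : f x = f m
    · obtain ⟨a, ha, e1⟩ := hf x hx δ hδ
      have e2 : (a 0).re = f m := by rw [← e1.self_of_nhds, hδ.1, e]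
      filter_upwards [e1, re_max ha (by
        filter_upwards [e1, hδ.2.2] with s h1 h2 using by rw [← h1, e2]; exact mx h2)] with s h1 h2
      exact iff_of_true e (h1.trans (h2 ▸ e2))
    · exact ((t x hx δ hδ).eventually_ne e).mono fun s hs => iff_of_false e hs
  exact (this hk).trans (this hk').symm

theorem mp' (hK : IsCompact K) (c : IsPreconnected K) (h : Swept E K) {f : V → ℝ}
    (hf : ∀ k ∈ K, ∀ δ, Disc E K k δ → ∃ a : ℂ → ℂ, AnalyticAt ℂ a 0 ∧
      ∀ᶠ s in 𝓝 0, f (δ s) = (a s).re) (hk : k ∈ K) (hδ : Disc E K k δ) {a : ℂ → ℂ}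
    (ha : AnalyticAt ℂ a 0) (e : ∀ᶠ s in 𝓝 0, f (δ s) = (a s).re) : ∀ᶠ s in 𝓝 0, a s = a 0 := by
  refine re_max ha ?_
  filter_upwards [e, hδ.2.2] with s h1 h2
  rw [← h1, ← e.self_of_nhds, hδ.1]
  exact (mp hK c h hf h2 hk).le

theorem loc_eq {X Z A : Type} [TopologicalSpace X] [TopologicalSpace Z] {f : X → Z}
    (hf : IsCoveringMap f) {l : Filter A} {u v : A → X} {x : X} (hu : Tendsto u l (𝓝 x))
    (hv : Tendsto v l (𝓝 x)) (e : ∀ᶠ a in l, f (u a) = f (v a)) : ∀ᶠ a in l, u a = v a := by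
  obtain ⟨U, o, m, i⟩ := hf.isLocalHomeomorph.isLocallyInjective x
  filter_upwards [hu (o.mem_nhds m), hv (o.mem_nhds m), e] with a h1 h2 h3 using i h1 h2 h3

end Vale.Agent.P300LN
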