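import Vale.Agent.P300LN.Ari
import Vale.Agent.P300LN.Mp
import Mathlib.Topology.Homotopy.Lifting
import Mathlib.Analysis.Convex.Contractible
import Mathlib.Analysis.Normed.Module.ContinuousInverse
import Mathlib.Analysis.Calculus.InverseFunctionTheorem.ContDiff

/-!
# P300, block NS: lifts of the product of the elliptic curves to a covering
-/

open scoped Manifold ContDiff Topology
open Filter Set Metric Complex Function

noncomputable section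

namespace Vale.Agent.P300LN

section top

variable {Y V : Type} [TopologicalSpace Y] [TopologicalSpace V] {p : V → Y} {Ψ : ℂ × ℂ → Y}
  {Φ Φ' : ℂ × ℂ → V} {z z' v : ℂ × ℂ}

/-- `Φ` is a lift of `Ψ` -/
def Lf (p : V → Y) (Ψ : ℂ × ℂ → Y) (Φ : ℂ × ℂ → V) : Prop := Continuous Φ ∧ ∀ z, p (Φ z) = Ψ z

theorem ex_lf (hp : IsCoveringMap p) (hΨ : Continuous Ψ) {k : V} (h : p k = Ψ z) :
    ∃ Φ, Lf p Ψ Φ ∧ Φ z = k := by
  obtain ⟨F, ⟨a, b⟩, -⟩ := hp.existsUnique_continuousMap_lifts ⟨Ψ, hΨ⟩ z k h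
  exact ⟨F, ⟨F.continuous, congrFun b⟩, a⟩

theorem lf_shift (hp : IsCoveringMap p) (h : Lf p Ψ Φ) (h' : Lf p Ψ Φ') (hv : v ∈ Per Ψ)
    (e : Φ' (z + v) = Φ z) (w : ℂ × ℂ) : Φ' (w + v) = Φ w :=
  congrFun (hp.eq_of_comp_eq (g₁ := fun w => Φ' (w + v)) (h'.1.comp (by fun_prop)) h.1
    (funext fun w => (h'.2 _).trans ((hv w).trans (h.2 w).symm)) z e) w

theorem per_of_null (hp : IsCoveringMap p) (h : Lf p Ψ Φ) (n : Null Ψ z v) : Φ (z + v) = Φ z := by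
  obtain ⟨D, d0, d⟩ := n
  let f : C(unitInterval, V) := ⟨fun t => Φ (z + (t : ℝ) • v), h.1.comp (by fun_prop)⟩
  have f0 : ∀ t, D (0, t) = p (f t) := fun t => (d0 t).trans (h.2 _).symm
  have l := congrFun (hp.liftHomotopy_lifts D f f0)
  have l0 := hp.liftHomotopy_zero D f f0
  generalize hp.liftHomotopy D f f0 = H at l l0
  have c : ∀ γ : unitInterval → unitInterval × unitInterval, Continuous γ →
      (∀ s, D (γ s) = Ψ z) → H (γ 0) = H (γ 1) := fun γ hγ e =>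
    hp.const_of_comp (g := fun s => H (γ s)) (H.continuous.comp hγ)
      (fun a b => ((l _).trans (e a)).trans ((l _).trans (e b)).symm) 0 1
  have e1 := c (fun s => (s, 0)) (by fun_prop) fun s => (d s).2.1
  have e2 := c (fun s => (1, s)) (by fun_prop) fun s => (d s).1
  have e3 := c (fun s => (s, 1)) (by fun_prop) fun s => (d s).2.2
  have := (l0 1).symm.trans (e3.trans ((e1.trans e2).symm.trans (l0 0)))
  simpa [f] using this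

theorem null_of_per [SimplyConnectedSpace V] (hp : Continuous p) (h : Lf p Ψ Φ)
    (e : Φ (z + v) = Φ z) : Null Ψ z v := by
  let γ : Path (Φ z) (Φ z) := ⟨⟨fun t => Φ (z + (t : ℝ) • v), h.1.comp (by fun_prop)⟩, by simp,
    by simpa using e⟩
  obtain ⟨H⟩ := SimplyConnectedSpace.paths_homotopic γ (Path.refl _)
  exact ⟨⟨fun x => p (H x), by fun_prop⟩, fun t => (congrArg p (H.apply_zero t)).trans (h.2 _),
    fun s => ⟨(congrArg p (H.apply_one s)).trans (h.2 _), (congrArg p (H.source s)).trans (h.2 _),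
      (congrArg p (H.target s)).trans (h.2 _)⟩⟩

theorem open_im [T2Space Y] (hΨ : Continuous Ψ) (eq : ∀ z z', Ψ z = Ψ z' ↔ ∃ g, z' = z + vec g)
    {W : Set (ℂ × ℂ)} (hW : W ∈ 𝓝 z) : ∀ᶠ y in 𝓝 (Ψ z), y ∈ range Ψ → y ∈ Ψ '' W := by
  have o : IsOpen (⋃ g, (fun w => w + vec g) ⁻¹' interior W) :=
    isOpen_iUnion fun g => isOpen_interior.preimage (by fun_prop)
  have c := (((isCompact_closedBall (0 : ℂ × ℂ) 3).diff o).image hΨ).isClosed.isOpen_compl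
  refine mem_of_superset (c.mem_nhds ?_) ?_
  · rintro ⟨w, hw, e⟩
    obtain ⟨g, rfl⟩ := (eq _ _).1 e
    exact hw.2 (mem_iUnion.2 ⟨g, mem_interior_iff_mem_nhds.2 hW⟩)
  · rintro _ n ⟨w, rfl⟩
    obtain ⟨g, hg⟩ := ex_dom w
    have e := (eq w _).2 ⟨g, rfl⟩
    by_contra n'
    refine n ⟨_, ⟨mem_closedBall_zero_iff.2 hg, fun m => ?_⟩, e.symm⟩
    obtain ⟨g', m⟩ := mem_iUnion.1 m
    exact n' ⟨_, interior_subset m, (e.trans ((eq _ _).2 ⟨g', rfl⟩)).symm⟩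

end top

variable {E : Type} [NormedAddCommGroup E] [NormedSpace ℂ E] {Y V : Type} [TopologicalSpace Y]
  [ChartedSpace E Y] [TopologicalSpace V] [ChartedSpace E V] {p : V → Y}
  {Ψ : ℂ × ℂ → Y} {Φ : ℂ × ℂ → V} {z : ℂ × ℂ}

theorem lf_hol (hp : IsLocalDiffeomorph 𝓘(ℂ, E) 𝓘(ℂ, E) ω p) (h : Lf p Ψ Φ)
    (hΨ : ContMDiff 𝓘(ℂ, ℂ × ℂ) 𝓘(ℂ, E) ω Ψ) : ContMDiff 𝓘(ℂ, ℂ × ℂ) 𝓘(ℂ, E) ω Φ := fun z => by
  have a := (hp (Φ z)).localInverse_contMDiffAt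
  rw [h.2] at a
  refine (a.comp z (hΨ z)).congr_of_eventuallyEq ?_
  filter_upwards [h.1.tendsto z (hp (Φ z)).localInverse_eventuallyEq_left] with w hw
  exact hw.symm.trans (congrArg _ (h.2 w))

theorem ex_ret [FiniteDimensional ℂ E] (hΨ : ContMDiffAt 𝓘(ℂ, ℂ × ℂ) 𝓘(ℂ, E) ω Ψ z)
    (i : Injective (mfderiv 𝓘(ℂ, ℂ × ℂ) 𝓘(ℂ, E) Ψ z)) :
    ∃ r : Y → ℂ × ℂ, ContMDiffAt 𝓘(ℂ, E) 𝓘(ℂ, ℂ × ℂ) ω r (Ψ z) ∧ ∀ᶠ w in 𝓝 z, r (Ψ w) = w := by
  have e := contMDiffAt_extChartAt (I := 𝓘(ℂ, E)) (n := ω) (x := Ψ z)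
  have G : ContDiffAt ℂ ω (extChartAt 𝓘(ℂ, E) (Ψ z) ∘ Ψ) z := (e.comp z hΨ).contDiffAt
  have d : mfderiv 𝓘(ℂ, ℂ × ℂ) 𝓘(ℂ, E) Ψ z = fderiv ℂ (extChartAt 𝓘(ℂ, E) (Ψ z) ∘ Ψ) z := by
    rw [(hΨ.mdifferentiableAt (by simp)).mfderiv]
    simp only [writtenInExtChartAt, extChartAt_model_space_eq_id, PartialEquiv.refl_symm,
      PartialEquiv.refl_coe, comp_id, id, modelWithCornersSelf_coe, range_id, fderivWithin_univ]
    rfl
  rw [d] at i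
  obtain ⟨A, hA⟩ := ContinuousLinearMap.HasLeftInverse.of_injective_of_finiteDimensional
    (f := fderiv ℂ (extChartAt 𝓘(ℂ, E) (Ψ z) ∘ Ψ) z) i
  have G' := A.contDiff.contDiffAt.comp z G
  have D : HasFDerivAt (A ∘ extChartAt 𝓘(ℂ, E) (Ψ z) ∘ Ψ)
      (ContinuousLinearEquiv.refl ℂ (ℂ × ℂ) : ℂ × ℂ →L[ℂ] ℂ × ℂ) z :=
    (A.hasFDerivAt.comp z (G.differentiableAt (by simp)).hasFDerivAt).congr_fderiv
      (ContinuousLinearMap.ext hA)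
  exact ⟨G'.localInverse D (by simp) ∘ A ∘ extChartAt 𝓘(ℂ, E) (Ψ z),
    (G'.to_localInverse D (by simp)).contMDiffAt.comp_of_eq (x := Ψ z)
      (A.contMDiff.contMDiffAt.comp _ e) rfl,
    (G'.hasStrictFDerivAt' D (by simp)).eventually_left_inverse⟩

/-- discs in the image lift -/
theorem disc_lift [FiniteDimensional ℂ E] [T2Space Y] (D : End E Y)
    (hp : P300.IsHolomorphicCovering E p) (h : Lf p D.Ψ Φ) {K : Set V} {δ : ℂ → V}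
    (hK : ∀ x ∈ K, p x ∈ range D.Ψ) (hδ : P300LS.Disc E K (Φ z) δ) :
    ∃ η : ℂ → ℂ × ℂ, AnalyticAt ℂ η 0 ∧ η 0 = z ∧ ∀ᶠ s in 𝓝 0, δ s = Φ (η s) := by
  obtain ⟨r, r1, r2⟩ := ex_ret (D.hol z) (D.imm z)
  have e0 : p (δ 0) = D.Ψ z := by rw [hδ.1, h.2]
  have a := (hp.2.2.contMDiff (δ 0)).comp 0 hδ.2.1
  have b : AnalyticAt ℂ (r ∘ p ∘ δ) 0 := (r1.comp_of_eq a e0).contDiffAt.analyticAt
  have c : (r ∘ p ∘ δ) 0 = z := (congrArg r e0).trans r2.self_of_nhds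
  refine ⟨_, b, c, loc_eq hp.1 (disc_td hδ) ((h.1.tendsto z).comp (c ▸ b.continuousAt.tendsto)) ?_⟩
  have t : Tendsto (p ∘ δ) (𝓝 0) (𝓝 (D.Ψ z)) := e0 ▸ a.continuousAt.tendsto
  filter_upwards [t (open_im D.hol.continuous D.eq r2), hδ.2.2] with s h1 h2
  obtain ⟨w, h3, h4⟩ := h1 (hK _ h2)
  exact h4.symm.trans ((h.2 w).symm.trans
    (congrArg (fun u => p (Φ u)) (h3.symm.trans (congrArg r h4))))

end Vale.Agent.P300LN
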